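import Vale.Agent.P092.H820.Pn

/-!
P092, TEAM N, block [N-FR] (helper789): the collineation group `PGL_n(k)` is the space of
projective frames: `g ↦ (g • e_0, .., g • e_m, g • (e_0 + .. + e_m))` is an open embedding onto the
set of the `m + 2` tuples of points in general position (`n = m + 1`).
-/

set_option linter.all false

open scoped LinearAlgebra.Projectivization
open Matrix Topology Filter TopologicalSpace

namespace Vale.Agent.P092.H789

open Vale.Agent.P092.H820

/-- `PGL_n(k)`, the same as `RC.PG` -/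
abbrev PG (k : Type) [NontriviallyNormedField k] (n : ℕ) : Type :=
  GL (Fin n) k ⧸ Subgroup.center (GL (Fin n) k)

/-- points, the same as `RC.YY` -/
abbrev YY (k : Type) [NontriviallyNormedField k] (m : ℕ) : Type := ℙ k (Fin (m + 1) → k)

/-! ### The action of `PGL_n(k)` -/

section act

variable {k : Type} [NontriviallyNormedField k] {n : ℕ}

theorem center_smul (g : GL (Fin n) k) (hg : g ∈ Subgroup.center (GL (Fin n) k))
    (x : ℙ k (Fin n → k)) : g • x = x := by
  obtain ⟨c, hc⟩ := Matrix.GeneralLinearGroup.mem_center_iff_val_mem_range_scalar.1 hg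
  obtain ⟨v, rfl⟩ := pj_surj x
  have e : g • pj k (Fin n) v = pj k (Fin n) ⟨g • v.1, (smul_ne_zero_iff_ne g).2 v.2⟩ := rfl
  have h1 : g • v.1 = c • v.1 := by
    change g.1 *ᵥ v.1 = _
    rw [← hc]
    funext i
    simp [Matrix.scalar_apply, Matrix.mulVec_diagonal]
  have hc0 : c ≠ 0 := by
    rintro rfl
    rw [zero_smul] at h1
    exact (smul_ne_zero_iff_ne g).2 v.2 h1
  rw [e, pj_eq]
  exact ⟨Units.mk0 c hc0, h1.symm⟩

variable (k n) in
/-- the action of `PGL_n(k)` as a homomorphism to permutations -/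
def actHom : PG k n →* Equiv.Perm (ℙ k (Fin n → k)) :=
  QuotientGroup.lift _ (MulAction.toPermHom (GL (Fin n) k) (ℙ k (Fin n → k))) fun g hg => by
    ext x
    exact center_smul g hg x

noncomputable instance actPG : MulAction (PG k n) (ℙ k (Fin n → k)) :=
  MulAction.compHom _ (actHom k n)

theorem mk_smul (g : GL (Fin n) k) (x : ℙ k (Fin n → k)) :
    (QuotientGroup.mk g : PG k n) • x = g • x := rfl

instance csPG : ContinuousSMul (PG k n) (ℙ k (Fin n → k)) where
  continuous_smul := by
    have hq : IsOpenQuotientMap (Prod.map (QuotientGroup.mk : GL (Fin n) k → PG k n)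
        (id : ℙ k (Fin n → k) → ℙ k (Fin n → k))) :=
      QuotientGroup.isOpenQuotientMap_mk.prodMap IsOpenQuotientMap.id
    rw [← hq.continuous_comp_iff]
    exact continuous_smul (M := GL (Fin n) k) (X := ℙ k (Fin n → k))

instance clCenter : IsClosed (Subgroup.center (GL (Fin n) k) : Set (GL (Fin n) k)) := by
  rw [Subgroup.coe_center, ← Set.centralizer_univ]
  exact Set.isClosed_centralizer _

instance t2PG : T2Space (PG k n) := inferInstance

instance tgPG : IsTopologicalGroup (PG k n) := inferInstance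

instance scPG [ProperSpace k] : SecondCountableTopology (PG k n) := by
  have h0 : SecondCountableTopology (Matrix (Fin n) (Fin n) k) :=
    inferInstanceAs (SecondCountableTopology (Fin n → Fin n → k))
  have h2 : SecondCountableTopology (Matrix (Fin n) (Fin n) k)ᵐᵒᵖ :=
    MulOpposite.opHomeomorph.symm.secondCountableTopology
  have h3 : SecondCountableTopology (GL (Fin n) k) :=
    Units.isEmbedding_embedProduct.secondCountableTopology
  infer_instance

instance scP [ProperSpace k] {ι : Type} [Finite ι] : SecondCountableTopology (ℙ k (ι → k)) := by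
  haveI := Fintype.ofFinite ι
  exact (pj_oq (k := k) (ι := ι)).isQuotientMap.secondCountableTopology pj_open

instance metP [ProperSpace k] {ι : Type} [Fintype ι] : MetrizableSpace (ℙ k (ι → k)) :=
  inferInstance

end act

/-! ### The source frame -/

section src

variable (k : Type) [NontriviallyNormedField k] (m : ℕ)

/-- the source vectors `e_0, .., e_m, e_0 + .. + e_m` -/
def sv : Fin (m + 2) → (Fin (m + 1) → k) :=
  Fin.lastCases (fun _ => 1) (fun i => Pi.single i 1)

@[simp] theorem sv_last : sv k m (Fin.last (m + 1)) = fun _ => 1 := by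
  simp [sv]

@[simp] theorem sv_castSucc (i : Fin (m + 1)) : sv k m i.castSucc = Pi.single i 1 := by
  simp [sv]

theorem sv_ne (i : Fin (m + 2)) : sv k m i ≠ 0 := by
  refine Fin.lastCases ?_ (fun j => ?_) i
  · intro h
    have := congrFun h 0
    simp at this
  · intro h
    have := congrFun h j
    simp at this

/-- the source frame -/
def src (i : Fin (m + 2)) : YY k m := pj k (Fin (m + 1)) ⟨sv k m i, sv_ne k m i⟩

end src

/-! ### General position -/

section gpos

variable {k : Type} [NontriviallyNormedField k] {m : ℕ}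

/-- general position: no hyperplane contains all the points but one -/
def GPos (z : Fin (m + 2) → YY k m) : Prop :=
  ∀ (i : Fin (m + 2)) (h : YY k m), ∃ j, j ≠ i ∧ ¬ Projectivization.orthogonal (z j) h

/-- the matrix with rows `v 0, .., v m` -/
def RM (v : Fin (m + 2) → (Fin (m + 1) → k)) : Matrix (Fin (m + 1)) (Fin (m + 1)) k :=
  Matrix.of fun l => v l.castSucc

/-- the coordinates of `det · v_(m+1)` in the basis `v 0, .., v m` -/
def cf (v : Fin (m + 2) → (Fin (m + 1) → k)) : Fin (m + 1) → k :=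
  cramer (RM v)ᵀ (v (Fin.last (m + 1)))

/-- the frame matrix: its columns are multiples of `v 0, .., v m`, their sum is a multiple
of `v (m + 1)` -/
def FB (v : Fin (m + 2) → (Fin (m + 1) → k)) : Matrix (Fin (m + 1)) (Fin (m + 1)) k :=
  (RM v)ᵀ * diagonal (cf v)

theorem det_FB (v : Fin (m + 2) → (Fin (m + 1) → k)) :
    (FB v).det = (RM v).det * ∏ j, ((RM v).updateRow j (v (Fin.last (m + 1)))).det := by
  rw [FB, det_mul, det_transpose, det_diagonal]
  simp only [cf, cramer_transpose_apply]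

theorem FB_one (v : Fin (m + 2) → (Fin (m + 1) → k)) :
    FB v *ᵥ (fun _ => 1) = (RM v).det • v (Fin.last (m + 1)) := by
  have h : diagonal (cf v) *ᵥ (fun _ => (1 : k)) = cf v := by
    funext i
    rw [mulVec_diagonal, mul_one]
  rw [FB, ← mulVec_mulVec, h, cf, mulVec_cramer, det_transpose]

theorem FB_single (v : Fin (m + 2) → (Fin (m + 1) → k)) (j : Fin (m + 1)) :
    FB v *ᵥ (Pi.single j 1) = cf v j • v j.castSucc := by
  funext i
  rw [mulVec_single_one, Pi.smul_apply, smul_eq_mul]
  change FB v i j = _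
  rw [FB, mul_diagonal, mul_comm]
  rfl

theorem FB_sv (v : Fin (m + 2) → (Fin (m + 1) → k)) (h : (FB v).det ≠ 0) (i : Fin (m + 2)) :
    ∃ t : k, t ≠ 0 ∧ FB v *ᵥ sv k m i = t • v i := by
  rw [det_FB] at h
  refine Fin.lastCases ?_ (fun j => ?_) i
  · exact ⟨_, left_ne_zero_of_mul h, by rw [sv_last, FB_one]⟩
  · refine ⟨cf v j, ?_, by rw [sv_castSucc, FB_single]⟩
    rw [cf, cramer_transpose_apply]
    exact (Finset.prod_ne_zero_iff.1 (right_ne_zero_of_mul h)) j (Finset.mem_univ j)

theorem det_ne_iff (M : Matrix (Fin (m + 1)) (Fin (m + 1)) k) :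
    M.det ≠ 0 ↔ ∀ x : Fin (m + 1) → k, x ≠ 0 → ∃ l, M l ⬝ᵥ x ≠ 0 := by
  rw [Ne, ← exists_mulVec_eq_zero_iff]
  push Not
  refine forall_congr' fun x => imp_congr_right fun _ => ?_
  exact Function.ne_iff

/-- the classes of `m + 2` vectors -/
def pjn (v : Fin (m + 2) → {v : Fin (m + 1) → k // v ≠ 0}) : Fin (m + 2) → YY k m :=
  fun i => pj k (Fin (m + 1)) (v i)

theorem pjn_open : IsOpenMap (pjn (k := k) (m := m)) :=
  IsOpenMap.piMap (fun _ => pj_open) (by simp [pj_surj])

theorem pjn_surj : Function.Surjective (pjn (k := k) (m := m)) := by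
  intro z
  choose v hv using fun i => pj_surj (k := k) (ι := Fin (m + 1)) (z i)
  exact ⟨v, funext hv⟩

theorem gpos_iff (v : Fin (m + 2) → {v : Fin (m + 1) → k // v ≠ 0}) :
    GPos (pjn v) ↔ (FB fun i => (v i).1).det ≠ 0 := by
  have e1 : (∀ h : YY k m, ∃ j, j ≠ Fin.last (m + 1) ∧
      ¬ Projectivization.orthogonal (pjn v j) h) ↔ (RM fun i => (v i).1).det ≠ 0 := by
    rw [det_ne_iff]
    constructor
    · intro h x hx
      obtain ⟨j, hj, hj2⟩ := h (pj k (Fin (m + 1)) ⟨x, hx⟩)
      obtain ⟨l, rfl⟩ := Fin.exists_castSucc_eq.2 hj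
      exact ⟨l, hj2⟩
    · intro h y
      obtain ⟨x, rfl⟩ := pj_surj y
      obtain ⟨l, hl⟩ := h x.1 x.2
      exact ⟨l.castSucc, (Fin.castSucc_lt_last l).ne, hl⟩
  have e2 : ∀ i : Fin (m + 1), (∀ h : YY k m, ∃ j, j ≠ i.castSucc ∧
      ¬ Projectivization.orthogonal (pjn v j) h) ↔
      ((RM fun i => (v i).1).updateRow i (v (Fin.last (m + 1))).1).det ≠ 0 := by
    intro i
    rw [det_ne_iff]
    constructor
    · intro h x hx
      obtain ⟨j, hj, hj2⟩ := h (pj k (Fin (m + 1)) ⟨x, hx⟩)
      rcases Fin.eq_castSucc_or_eq_last j with ⟨l, rfl⟩ | rfl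
      · refine ⟨l, ?_⟩
        have hl : l ≠ i := fun h => hj (by rw [h])
        rw [updateRow_ne hl]
        exact hj2
      · refine ⟨i, ?_⟩
        rw [updateRow_self]
        exact hj2
    · intro h y
      obtain ⟨x, rfl⟩ := pj_surj y
      obtain ⟨l, hl⟩ := h x.1 x.2
      by_cases hli : l = i
      · subst hli
        rw [updateRow_self] at hl
        exact ⟨Fin.last (m + 1), (Fin.castSucc_lt_last l).ne', hl⟩
      · rw [updateRow_ne hli] at hl
        exact ⟨l.castSucc, fun h => hli (Fin.castSucc_injective _ h), hl⟩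
  rw [det_FB, mul_ne_zero_iff, Finset.prod_ne_zero_iff]
  constructor
  · intro h
    exact ⟨e1.1 (h _), fun j _ => (e2 j).1 (h _)⟩
  · rintro ⟨h1, h2⟩ i
    refine Fin.lastCases (e1.2 h1) (fun j => (e2 j).2 (h2 j (Finset.mem_univ j))) i

theorem FB_cont : Continuous fun v : Fin (m + 2) → {v : Fin (m + 1) → k // v ≠ 0} =>
    FB fun i => (v i).1 := by
  have h1 : Continuous fun v : Fin (m + 2) → {v : Fin (m + 1) → k // v ≠ 0} =>
      (RM fun i => (v i).1)ᵀ := by
    refine continuous_matrix fun i j => ?_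
    exact (continuous_apply i).comp (continuous_subtype_val.comp (continuous_apply j.castSucc))
  have h2 : Continuous fun v : Fin (m + 2) → {v : Fin (m + 1) → k // v ≠ 0} =>
      cf fun i => (v i).1 := by
    refine Continuous.matrix_cramer h1 ?_
    exact continuous_subtype_val.comp (continuous_apply _)
  exact h1.mul h2.matrix_diagonal

end gpos

/-! ### The frame map -/

section cm

variable {k : Type} [NontriviallyNormedField k] {m : ℕ}

variable (k m) in
/-- the frame map -/
noncomputable def cmap (g : PG k (m + 1)) : Fin (m + 2) → YY k m := fun i => g • src k m i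

theorem cmap_apply (g : PG k (m + 1)) (i : Fin (m + 2)) : cmap k m g i = g • src k m i := rfl

theorem cmap_mul (g h : PG k (m + 1)) (i : Fin (m + 2)) :
    cmap k m (g * h) i = g • cmap k m h i := mul_smul g h _

theorem cmap_one : cmap k m 1 = src k m := by
  funext i
  exact one_smul _ _

theorem cmap_continuous : Continuous (cmap k m) :=
  continuous_pi fun i => by
    have h : Continuous fun p : PG k (m + 1) × YY k m => p.1 • p.2 := continuous_smul
    exact h.comp (continuous_id.prodMk continuous_const)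

theorem smul_src (g : GL (Fin (m + 1)) k) (i : Fin (m + 2)) (w : {v : Fin (m + 1) → k // v ≠ 0})
    (h : ∃ t : k, t ≠ 0 ∧ g.1 *ᵥ sv k m i = t • w.1) :
    (QuotientGroup.mk g : PG k (m + 1)) • src k m i = pj k (Fin (m + 1)) w := by
  obtain ⟨t, ht, h⟩ := h
  have e : (QuotientGroup.mk g : PG k (m + 1)) • src k m i =
      pj k (Fin (m + 1)) ⟨g • sv k m i, (smul_ne_zero_iff_ne g).2 (sv_ne k m i)⟩ := rfl
  rw [e, pj_eq]
  exact ⟨Units.mk0 t ht, h.symm⟩

/-- the inverse of the frame map, on vectors -/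
noncomputable def FM (v : Fin (m + 2) → (Fin (m + 1) → k)) (h : (FB v).det ≠ 0) :
    GL (Fin (m + 1)) k := Matrix.GeneralLinearGroup.mkOfDetNeZero (FB v) h

theorem cmap_FM (v : Fin (m + 2) → {v : Fin (m + 1) → k // v ≠ 0})
    (h : (FB fun i => (v i).1).det ≠ 0) :
    cmap k m (QuotientGroup.mk (FM (fun i => (v i).1) h)) = pjn v := by
  funext i
  exact smul_src _ i (v i) (FB_sv (fun i => (v i).1) h i)

/-- an element of `PGL` which fixes the source frame is trivial -/
theorem eq_one_of_fix (g : PG k (m + 1)) (h : ∀ i, g • src k m i = src k m i) : g = 1 := by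
  obtain ⟨g, rfl⟩ := QuotientGroup.mk_surjective g
  have hm : ∀ i, ∃ t : k, g.1 *ᵥ sv k m i = t • sv k m i := by
    intro i
    have h1 : pj k (Fin (m + 1)) ⟨g • sv k m i, (smul_ne_zero_iff_ne g).2 (sv_ne k m i)⟩ =
        pj k (Fin (m + 1)) ⟨sv k m i, sv_ne k m i⟩ := h i
    rw [pj_eq] at h1
    obtain ⟨c, hc⟩ := h1
    exact ⟨c, hc.symm⟩
  choose t ht using hm
  rw [QuotientGroup.eq_one_iff, Matrix.GeneralLinearGroup.mem_center_iff_val_mem_range_scalar]
  refine ⟨t (Fin.last (m + 1)), ?_⟩
  have a : ∀ i j, g.1 i j = if i = j then t j.castSucc else 0 := by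
    intro i j
    have h1 := congrFun (ht j.castSucc) i
    rw [sv_castSucc, mulVec_single_one] at h1
    have h2 : g.1 i j = t j.castSucc * (Pi.single j (1 : k) : Fin (m + 1) → k) i := h1
    rw [h2, Pi.single_apply]
    split_ifs <;> simp
  have b : ∀ i : Fin (m + 1), t i.castSucc = t (Fin.last (m + 1)) := by
    intro i
    have h1 := congrFun (ht (Fin.last (m + 1))) i
    rw [sv_last] at h1
    have h2 : (g.1 *ᵥ fun _ => (1 : k)) i = t i.castSucc := by
      rw [mulVec, dotProduct]
      simp only [a, mul_one]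
      simp
    rw [h2] at h1
    simpa using h1
  ext i j
  rw [a i j, scalar_apply, diagonal_apply]
  split_ifs with hij
  · rw [b j]
  · rfl

theorem cmap_injective : Function.Injective (cmap k m) := by
  intro g h hgh
  have h1 : h⁻¹ * g = 1 := by
    refine eq_one_of_fix _ fun i => ?_
    have h2 : g • src k m i = h • src k m i := congrFun hgh i
    rw [mul_smul, h2, inv_smul_smul]
  exact (inv_mul_eq_one.1 h1).symm

/-- the vectors of a frame -/
noncomputable def fv (g : GL (Fin (m + 1)) k) (i : Fin (m + 2)) :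
    {v : Fin (m + 1) → k // v ≠ 0} :=
  ⟨g • sv k m i, (smul_ne_zero_iff_ne g).2 (sv_ne k m i)⟩

theorem pjn_fv (g : GL (Fin (m + 1)) k) : pjn (fv g) = cmap k m (QuotientGroup.mk g) := rfl

theorem gpos_src : GPos (src k m) := by
  have h : GPos (pjn fun i => ⟨sv k m i, sv_ne k m i⟩) := by
    rw [gpos_iff]
    have e : RM (sv k m) = 1 := by
      ext i j
      rw [RM, of_apply, sv_castSucc, one_apply, Pi.single_apply]
      simp only [eq_comm]
    change (FB (sv k m)).det ≠ 0
    rw [det_FB, e, det_one, one_mul, Finset.prod_ne_zero_iff]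
    intro j _
    have h2 := cramer_transpose_apply (1 : Matrix (Fin (m + 1)) (Fin (m + 1)) k)
      (sv k m (Fin.last (m + 1))) j
    rw [← h2, transpose_one, cramer_one, sv_last]
    exact one_ne_zero
  exact h

/-- general position is invariant under `GL` -/
theorem gpos_smul' (g : GL (Fin (m + 1)) k) {z : Fin (m + 2) → YY k m} (hz : GPos z) :
    GPos fun i => g • z i := by
  intro i h
  obtain ⟨x, rfl⟩ := pj_surj h
  have hx : g.1ᵀ *ᵥ x.1 ≠ 0 := by
    intro h0
    have h1 : (g⁻¹).1ᵀ *ᵥ (g.1ᵀ *ᵥ x.1) = x.1 := by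
      rw [mulVec_mulVec, ← transpose_mul, ← Units.val_mul, mul_inv_cancel, Units.val_one,
        transpose_one, one_mulVec]
    rw [h0, mulVec_zero] at h1
    exact x.2 h1.symm
  obtain ⟨j, hj, hj2⟩ := hz i (pj k (Fin (m + 1)) ⟨_, hx⟩)
  refine ⟨j, hj, ?_⟩
  obtain ⟨v, hv⟩ := pj_surj (z j)
  change ¬ Projectivization.orthogonal (g • z j) _
  rw [← hv] at hj2 ⊢
  change ¬ ((g.1 *ᵥ v.1) ⬝ᵥ x.1 = 0)
  change ¬ (v.1 ⬝ᵥ (g.1ᵀ *ᵥ x.1) = 0) at hj2
  rwa [dotProduct_mulVec, vecMul_transpose] at hj2

theorem gpos_smul (g : PG k (m + 1)) {z : Fin (m + 2) → YY k m} (hz : GPos z) :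
    GPos fun i => g • z i := by
  obtain ⟨g, rfl⟩ := QuotientGroup.mk_surjective g
  exact gpos_smul' g hz

theorem gpos_cmap (g : PG k (m + 1)) : GPos (cmap k m g) := gpos_smul g gpos_src

theorem det_fv (g : GL (Fin (m + 1)) k) : (FB fun i => (fv g i).1).det ≠ 0 := by
  rw [← gpos_iff, pjn_fv]
  exact gpos_cmap _

theorem FM_fv (g : GL (Fin (m + 1)) k) :
    (QuotientGroup.mk (FM (fun i => (fv g i).1) (det_fv g)) : PG k (m + 1)) =
      QuotientGroup.mk g := by
  refine cmap_injective ?_
  rw [cmap_FM, pjn_fv]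

/-- the range of the frame map consists of the tuples in general position -/
theorem range_cmap : Set.range (cmap k m) = {z | GPos z} := by
  ext z
  constructor
  · rintro ⟨g, rfl⟩
    exact gpos_cmap g
  · intro hz
    obtain ⟨v, rfl⟩ := pjn_surj z
    exact ⟨_, cmap_FM v ((gpos_iff v).1 hz)⟩

theorem isOpen_det : IsOpen {v : Fin (m + 2) → {v : Fin (m + 1) → k // v ≠ 0} |
    (FB fun i => (v i).1).det ≠ 0} :=
  isOpen_ne_fun FB_cont.matrix_det continuous_const

theorem FM_cont : Continuous fun v : {v : Fin (m + 2) → {v : Fin (m + 1) → k // v ≠ 0} //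
    (FB fun i => (v i).1).det ≠ 0} => FM (fun i => (v.1 i).1) v.2 := by
  have h1 : Continuous fun v : {v : Fin (m + 2) → {v : Fin (m + 1) → k // v ≠ 0} //
      (FB fun i => (v i).1).det ≠ 0} => FB fun i => (v.1 i).1 :=
    FB_cont.comp continuous_subtype_val
  have e : (fun v : {v : Fin (m + 2) → {v : Fin (m + 1) → k // v ≠ 0} //
      (FB fun i => (v i).1).det ≠ 0} => ((FM (fun i => (v.1 i).1) v.2)⁻¹).1) =
      fun v => ((FB fun i => (v.1 i).1).det)⁻¹ • (FB fun i => (v.1 i).1).adjugate := by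
    funext v
    rw [Matrix.coe_units_inv, Matrix.inv_def, Ring.inverse_eq_inv']
    rfl
  have h2 : Continuous (fun v : {v : Fin (m + 2) → {v : Fin (m + 1) → k // v ≠ 0} //
      (FB fun i => (v i).1).det ≠ 0} => ((FM (fun i => (v.1 i).1) v.2)⁻¹).1) := by
    rw [e]
    exact (h1.matrix_det.inv₀ fun v => v.2).smul h1.matrix_adjugate
  exact Units.continuous_iff.2 ⟨h1, h2⟩

theorem cmap_isOpenMap : IsOpenMap (cmap k m) := by
  intro W hW
  have h1 : IsOpen ((fun v : {v : Fin (m + 2) → {v : Fin (m + 1) → k // v ≠ 0} //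
      (FB fun i => (v i).1).det ≠ 0} =>
      (QuotientGroup.mk (FM (fun i => (v.1 i).1) v.2) : PG k (m + 1))) ⁻¹' W) :=
    hW.preimage (continuous_quot_mk.comp FM_cont)
  have h2 := isOpen_det.isOpenMap_subtype_val _ h1
  have e : cmap k m '' W = pjn '' (Subtype.val '' ((fun v : {v : Fin (m + 2) →
      {v : Fin (m + 1) → k // v ≠ 0} // (FB fun i => (v i).1).det ≠ 0} =>
      (QuotientGroup.mk (FM (fun i => (v.1 i).1) v.2) : PG k (m + 1))) ⁻¹' W)) := by
    ext z
    constructor
    · rintro ⟨g, hg, rfl⟩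
      obtain ⟨g, rfl⟩ := QuotientGroup.mk_surjective g
      refine ⟨fv g, ⟨⟨fv g, det_fv g⟩, ?_, rfl⟩, pjn_fv g⟩
      change (QuotientGroup.mk (FM (fun i => (fv g i).1) (det_fv g)) : PG k (m + 1)) ∈ W
      rw [FM_fv]
      exact hg
    · rintro ⟨_, ⟨⟨v, hv⟩, hW', rfl⟩, rfl⟩
      exact ⟨_, hW', cmap_FM v hv⟩
  rw [e]
  exact pjn_open _ h2

/-- **[N-FR]** the frame map is an open embedding -/
theorem isOpenEmbedding_cmap : IsOpenEmbedding (cmap k m) :=
  IsOpenEmbedding.of_continuous_injective_isOpenMap cmap_continuous cmap_injective cmap_isOpenMap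

theorem isOpen_gpos : IsOpen {z : Fin (m + 2) → YY k m | GPos z} := by
  rw [← range_cmap]
  exact isOpenEmbedding_cmap.isOpen_range

/-- `PGL_(m+1)(k)` is the space of frames -/
noncomputable def frH : PG k (m + 1) ≃ₜ {z : Fin (m + 2) → YY k m // GPos z} :=
  isOpenEmbedding_cmap.toIsEmbedding.toHomeomorph.trans (Homeomorph.setCongr range_cmap)

theorem frH_apply (g : PG k (m + 1)) : (frH g).1 = cmap k m g := rfl

instance lcPG [ProperSpace k] : LocallyCompactSpace (PG k (m + 1)) :=
  isOpenEmbedding_cmap.locallyCompactSpace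

end cm

end Vale.Agent.P092.H789
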